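import Vale.Agent.P235.H56.Defs
import Vale.Agent.P235.Bdl.B1

/-!
P235, 3-sums, row (a) CENTRE (helper558).  Two points which are both at distance at most
`A i + e` from three vertices `R i`, where the `A i` are the Gromov products of the triple, are at
distance at most `2 e`, if `G` and a new vertex joined to the `R i` have no `K_{3,3}` minor.
-/

set_option autoImplicit false

namespace Vale.Agent.P235.K5.H558

open SimpleGraph Vale.Agent.P235 Vale.Agent.P235.H134 Vale.Agent.P235.H56
open Vale.Agent.P235.H341W (capG)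

variable {V : Type}

/-- a set in which one can walk down to `r` is connected -/
theorem star_conn [Finite V] {G : SimpleGraph V} (f : V → ℝ) {S : Set V} {r : V} (hr : r ∈ S)
    (h : ∀ v ∈ S, v ≠ r → ∃ w ∈ S, G.Adj v w ∧ f w < f v) : (G.induce S).Connected := by
  have hwf : WellFounded fun a b : V => f a < f b := by
    have : IsTrans V fun a b : V => f a < f b := ⟨fun _ _ _ h1 h2 => h1.trans h2⟩
    have : Std.Irrefl fun a b : V => f a < f b := ⟨fun a h => lt_irrefl _ h⟩
    exact Finite.wellFounded_of_trans_of_irrefl _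
  have key : ∀ v (hv : v ∈ S), (G.induce S).Reachable ⟨v, hv⟩ ⟨r, hr⟩ := by
    intro v
    induction v using hwf.induction with
    | _ v ih =>
      intro hv
      by_cases hvr : v = r
      · subst hvr; exact Reachable.refl _
      · obtain ⟨w, hw, ha, hlt⟩ := h v hv hvr
        have : (G.induce S).Adj ⟨v, hv⟩ ⟨w, hw⟩ := ha
        exact this.reachable.trans (ih w hlt hw)
  have : Nonempty S := ⟨⟨r, hr⟩⟩
  exact ⟨fun a b => (key a.1 a.2).trans (key b.1 b.2).symm⟩

/-- in a metric generated by the edges there is a first step towards `x` -/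
theorem step [Finite V] {G : SimpleGraph V} {d : V → V → ℝ} (hd : IsMet d) (hG : Gen G d)
    {x v : V} (hxv : v ≠ x) : ∃ w, G.Adj v w ∧ d v w + d w x = d v x := by
  classical
  by_contra hno
  push Not at hno
  obtain ⟨δ, hδ, hδ'⟩ : ∃ δ : ℝ, 0 < δ ∧ ∀ w, G.Adj v w → δ ≤ d v w + d w x - d v x := by
    by_cases hne : Nonempty {w // G.Adj v w}
    · obtain ⟨w0, hw0⟩ := Finite.exists_min fun w : {w // G.Adj v w} => d v w + d w x - d v x
      refine ⟨d v w0 + d w0 x - d v x, ?_, fun w hw => hw0 ⟨w, hw⟩⟩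
      have h1 := hd.tri v w0 x
      have h2 := hno w0 w0.2
      have : d v x < d v w0 + d w0 x := lt_of_le_of_ne h1 (Ne.symm h2)
      linarith
    · exact ⟨1, one_pos, fun w hw => (hne ⟨⟨w, hw⟩⟩).elim⟩
  have h := hG (fun u => if u = v then d v x + δ else d u x) (by
    intro a b hab
    have hne := hab.ne
    by_cases ha : a = v
    · subst ha
      have hb : b ≠ a := hne.symm
      rw [if_pos rfl, if_neg hb, abs_le]
      have h1 := hδ' b hab
      have h2 := hd.tri b a x
      have h3 := hd.symm a b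
      constructor <;> linarith
    · by_cases hb : b = v
      · subst hb
        rw [if_pos rfl, if_neg ha, abs_le]
        have h1 := hδ' a hab.symm
        have h2 := hd.tri a b x
        have h3 := hd.symm a b
        constructor <;> linarith
      · rw [if_neg ha, if_neg hb, abs_le]
        have h1 := hd.tri a b x
        have h2 := hd.tri b a x
        have h3 := hd.symm a b
        constructor <;> linarith) v x
  rw [if_pos rfl, if_neg (Ne.symm hxv), hd.self, sub_zero] at h
  have := (le_abs_self _).trans h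
  linarith

theorem conn_some {G : SimpleGraph V} {T S : Set V} (h : (G.induce S).Connected) :
    ((capG G T).induce (some '' S)).Connected := by
  refine h.map (f := ⟨fun v : S => (⟨some v.1, ⟨v.1, v.2, rfl⟩⟩ : (some '' S : Set (Option V))),
    fun {a b} hab => hab⟩) ?_
  rintro ⟨_, ⟨v, hv, rfl⟩⟩
  exact ⟨⟨v, hv⟩, rfl⟩

/-- **crossing intervals**: `x`, `y` and a new vertex against `R 0`, `R 1`, `R 2` -/
theorem crossing [Finite V] {G : SimpleGraph V} {d : V → V → ℝ} (hd : IsMet d) (hG : Gen G d)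
    (R : Fin 3 → V) (hno : ¬ IsMinor K33 (capG G (Set.range R))) (x y : V) :
    ∃ i j v, i ≠ j ∧ d x v + d v (R i) = d x (R i) ∧ d y v + d v (R j) = d y (R j) := by
  by_contra hc
  push Not at hc
  apply hno
  have hI : ∀ i j v, d x v + d v (R i) = d x (R i) → d y v + d v (R j) = d y (R j) → i = j := by
    intro i j v h1 h2
    by_contra hij
    exact hc i j v hij h1 h2
  let I : V → V → Set V := fun p r => {v | d p v + d v r = d p r}
  -- rules
  have rule1 : ∀ {p r v w : V}, v ∈ I p r → w ∈ I v r → w ∈ I p r := by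
    intro p r v w h1 h2
    have h3 := hd.tri p v w
    have h4 := hd.tri p w r
    simp only [I, Set.mem_ofPred_eq] at h1 h2 ⊢
    linarith
  have rule2 : ∀ {p r v w : V}, v ∈ I p r → d v w + d w p = d v p → w ∈ I p r ∧ v ∈ I w r := by
    intro p r v w h1 h2
    have h3 := hd.tri w v r
    have h4 := hd.tri p w r
    have e1 := hd.symm v w
    have e2 := hd.symm w p
    have e3 := hd.symm v p
    simp only [I, Set.mem_ofPred_eq] at h1 ⊢
    constructor <;> linarith
  have self1 : ∀ p r : V, p ∈ I p r := by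
    intro p r; simp only [I, Set.mem_ofPred_eq]; rw [hd.self, zero_add]
  have self2 : ∀ p r : V, r ∈ I p r := by
    intro p r; simp only [I, Set.mem_ofPred_eq]; rw [hd.self, add_zero]
  let M : Fin 3 → Set V := fun i => I x (R i) ∩ I y (R i)
  have hM : ∀ i, (G.induce (M i)).Connected := by
    intro i
    refine star_conn (fun v => d v (R i)) (r := R i) ⟨self2 _ _, self2 _ _⟩ ?_
    rintro v ⟨h1, h2⟩ hv
    obtain ⟨w, ha, hw⟩ := step hd hG (x := R i) hv
    have hw' : w ∈ I v (R i) := hw
    refine ⟨w, ⟨rule1 h1 hw', rule1 h2 hw'⟩, ha, ?_⟩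
    have := hd.pos v w ha.ne
    show d w (R i) < d v (R i)
    linarith
  have side : ∀ p q : V, (∀ i j v, v ∈ I p (R i) → v ∈ I q (R j) → i = j) →
      (G.induce {v | ∃ i, v ∈ I p (R i) ∧ v ∉ I q (R i)}).Connected ∧
      ∀ i, ∃ v, (v ∈ I p (R i) ∧ v ∉ I q (R i)) ∧ ∃ w, (w ∈ I p (R i) ∧ w ∈ I q (R i)) ∧
        G.Adj v w := by
    intro p q hpq
    have hp : ∀ i, p ∈ I p (R i) ∧ p ∉ I q (R i) := by
      intro i
      refine ⟨self1 _ _, fun h => ?_⟩
      have h0 := hpq (i + 1) i p (self1 _ _) h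
      revert h0
      fin_cases i <;> decide
    constructor
    · refine star_conn (fun v => d v p) (r := p) ⟨0, hp 0⟩ ?_
      rintro v ⟨i, h1, h2⟩ hv
      obtain ⟨w, ha, hw⟩ := step hd hG (x := p) hv
      obtain ⟨h3, h4⟩ := rule2 h1 hw
      refine ⟨w, ⟨i, h3, fun h => h2 (rule1 h h4)⟩, ha, ?_⟩
      have := hd.pos v w ha.ne
      show d w p < d v p
      linarith
    · intro i
      have hfin : Set.Finite {v | v ∈ I p (R i) ∧ v ∉ I q (R i)} := Set.toFinite _
      obtain ⟨v, hv, hmin⟩ := Set.exists_min_image _ (fun v => d v (R i)) hfin ⟨p, hp i⟩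
      have hne : v ≠ R i := fun h => hv.2 (h ▸ self2 _ _)
      obtain ⟨w, ha, hw⟩ := step hd hG (x := R i) hne
      have hw' : w ∈ I v (R i) := hw
      have h1 : w ∈ I p (R i) := rule1 hv.1 hw'
      refine ⟨v, hv, w, ⟨h1, ?_⟩, ha⟩
      by_contra hn
      have h2 : d v (R i) ≤ d w (R i) := hmin w ⟨h1, hn⟩
      have := hd.pos v w ha.ne
      linarith
  obtain ⟨hX, hX'⟩ := side x y fun i j v h1 h2 => hI i j v h1 h2
  obtain ⟨hY, hY'⟩ := side y x fun i j v h1 h2 => (hI j i v h2 h1).symm
  set X : Set V := {v | ∃ i, v ∈ I x (R i) ∧ v ∉ I y (R i)} with hXdef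
  set Y : Set V := {v | ∃ i, v ∈ I y (R i) ∧ v ∉ I x (R i)} with hYdef
  have dXY : Disjoint X Y := by
    rw [Set.disjoint_left]
    rintro v ⟨i, h1, h2⟩ ⟨j, h3, h4⟩
    have := hI i j v h1 h3
    subst this
    exact h2 h3
  have dXM : ∀ i, Disjoint X (M i) := by
    intro j
    rw [Set.disjoint_left]
    rintro v ⟨i, h1, h2⟩ ⟨h3, h4⟩
    have := hI i j v h1 h4
    subst this
    exact h2 h4
  have dYM : ∀ i, Disjoint Y (M i) := by
    intro j
    rw [Set.disjoint_left]
    rintro v ⟨i, h1, h2⟩ ⟨h3, h4⟩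
    have := hI j i v h3 h1
    subst this
    exact h2 h3
  have dMM : ∀ i j, i ≠ j → Disjoint (M i) (M j) := by
    intro i j hij
    rw [Set.disjoint_left]
    rintro v ⟨h1, h2⟩ ⟨h3, h4⟩
    exact hij (hI i j v h1 h4)
  have img : ∀ {S T : Set V}, Disjoint S T → Disjoint (some '' S) (some '' T) := by
    intro S T h
    exact (Set.disjoint_image_iff (Option.some_injective V)).2 h
  have nn : ∀ S : Set V, Disjoint (some '' S) ({none} : Set (Option V)) := by
    intro S
    rw [Set.disjoint_singleton_right]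
    rintro ⟨v, -, h⟩
    exact Option.some_ne_none v h
  let μ : Fin 3 ⊕ Fin 3 → Set (Option V) := fun s => match s with
    | Sum.inl 0 => some '' X
    | Sum.inl 1 => some '' Y
    | Sum.inl 2 => {none}
    | Sum.inr i => some '' M i
  refine ⟨μ, ?_, ?_, ?_⟩
  · rintro (a | i)
    · fin_cases a
      · exact conn_some hX
      · exact conn_some hY
      · show ((capG G (Set.range R)).induce ({none} : Set (Option V))).Connected
        rw [SimpleGraph.connected_iff]
        refine ⟨?_, ⟨⟨none, rfl⟩⟩⟩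
        rintro ⟨a, ha⟩ ⟨b, hb⟩
        have : a = b := (Set.mem_singleton_iff.1 ha).trans (Set.mem_singleton_iff.1 hb).symm
        subst this
        exact Reachable.refl _
    · exact conn_some (hM i)
  · rintro (a | i) (b | j) hab
    · fin_cases a <;> fin_cases b <;> first
        | exact absurd rfl hab
        | exact img dXY
        | exact (img dXY).symm
        | exact nn _
        | exact (nn _).symm
    · fin_cases a
      · exact img (dXM j)
      · exact img (dYM j)
      · exact (nn _).symm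
    · fin_cases b
      · exact (img (dXM i)).symm
      · exact (img (dYM i)).symm
      · exact nn _
    · exact img (dMM i j fun h => hab (h ▸ rfl))
  · have key : ∀ (a i : Fin 3), ∃ u ∈ μ (Sum.inl a), ∃ v ∈ μ (Sum.inr i),
        (capG G (Set.range R)).Adj u v := by
      intro a i
      fin_cases a
      · obtain ⟨v, hv, w, hw, ha⟩ := hX' i
        exact ⟨some v, ⟨v, ⟨i, hv⟩, rfl⟩, some w, ⟨w, hw, rfl⟩, ha⟩
      · obtain ⟨v, hv, w, hw, ha⟩ := hY' i
        exact ⟨some v, ⟨v, ⟨i, hv⟩, rfl⟩, some w, ⟨w, ⟨hw.2, hw.1⟩, rfl⟩, ha⟩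
      · exact ⟨none, rfl, some (R i), ⟨R i, ⟨self2 _ _, self2 _ _⟩, rfl⟩, ⟨i, rfl⟩⟩
    rintro (a | i) (b | j) hab
    · simp at hab
    · exact key a j
    · obtain ⟨u, hu, v, hv, h⟩ := key b i
      exact ⟨v, hv, u, hu, h.symm⟩
    · simp at hab

/-- **(a) CENTRE.** -/
theorem centre [Finite V] {G : SimpleGraph V} {d : V → V → ℝ} (hd : IsMet d) (hG : Gen G d)
    (R : Fin 3 → V) (hno : ¬ IsMinor K33 (capG G (Set.range R))) (A : Fin 3 → ℝ)
    (hA : ∀ i j, i ≠ j → A i + A j ≤ d (R i) (R j)) (e e' : ℝ) (x y : V)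
    (hx : ∀ i, d x (R i) ≤ A i + e) (hy : ∀ i, d y (R i) ≤ A i + e') : d x y ≤ e + e' := by
  obtain ⟨i, j, v, hij, h1, h2⟩ := crossing hd hG R hno x y
  have h3 := hd.tri x v y
  have h4 := hd.tri (R i) v (R j)
  have e1 := hd.symm y v
  have e2 := hd.symm v (R i)
  have := hA i j hij
  have := hx i
  have := hy j
  linarith

end Vale.Agent.P235.K5.H558
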