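import Vale.Agent.P235.H105.Glue
import Vale.Agent.P235.H105.Tw
import Vale.Agent.P235.R2.H598.Clos

/-!
P235, 3-sums (helper558): edge lengths `≥ 0`.  `exists_pseudo`: the path pseudometric of edge lengths
`l ≥ 0`, in dual form.  `EdgeExact.pseudo`: a graph which is edge-exact is edge-exact for the
pseudometrics generated by it.
-/

set_option autoImplicit false

namespace Vale.Agent.P235.K5.H558

open SimpleGraph Vale.Agent.P235 Filter Topology
open Vale.Agent.P235.R2.H598

variable {V : Type}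

/-- `d` is a pseudometric -/
structure IsPM (d : V → V → ℝ) : Prop where
  self : ∀ x, d x x = 0
  symm : ∀ x y, d x y = d y x
  tri : ∀ x y z, d x z ≤ d x y + d y z

theorem IsPM.nonneg {d : V → V → ℝ} (hd : IsPM d) (x y : V) : 0 ≤ d x y := by
  have h1 := hd.tri x y x
  have h2 := hd.self x
  have h3 := hd.symm x y
  linarith

theorem _root_.Vale.Agent.P235.IsMet.isPM {d : V → V → ℝ} (hd : IsMet d) : IsPM d :=
  ⟨hd.self, hd.symm, hd.tri⟩

theorem IsPM.abs_sub {d : V → V → ℝ} (hd : IsPM d) (x y z : V) : |d x z - d y z| ≤ d x y := by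
  rw [abs_le]
  constructor
  · linarith [hd.tri y x z, hd.symm x y]
  · linarith [hd.tri x y z]

/-- limits of `L₁` semimetrics, bounds which depend on `n` -/
theorem isL1_lim [Finite V] {U L : ℕ → V → V → ℝ} {U' L' : V → V → ℝ}
    (hU : ∀ x y, Tendsto (fun n => U n x y) atTop (𝓝 (U' x y)))
    (hL : ∀ x y, Tendsto (fun n => L n x y) atTop (𝓝 (L' x y)))
    (h : ∀ n, ∃ F, IsL1 F ∧ ∀ x y, L n x y ≤ F x y ∧ F x y ≤ U n x y) :
    ∃ F, IsL1 F ∧ ∀ x y, L' x y ≤ F x y ∧ F x y ≤ U' x y := by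
  classical
  have : Fintype V := Fintype.ofFinite V
  choose F hF hLU using h
  have hb : ∀ x y, ∃ M : ℝ, ∀ n, U n x y ≤ M := by
    intro x y
    obtain ⟨M, hM⟩ := (hU x y).bddAbove_range
    exact ⟨M, fun n => hM ⟨n, rfl⟩⟩
  choose m hm using hb
  set M : ℝ := ∑ x, ∑ y, |m x y| with hMdef
  have hM0 : 0 ≤ M := Finset.sum_nonneg fun x _ => Finset.sum_nonneg fun y _ => abs_nonneg _
  have hdM : ∀ n x y, U n x y ≤ M := by
    intro n x y
    calc U n x y ≤ m x y := hm x y n
      _ ≤ |m x y| := le_abs_self _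
      _ ≤ ∑ y, |m x y| := Finset.single_le_sum (f := fun y => |m x y|)
          (fun y _ => abs_nonneg _) (Finset.mem_univ y)
      _ ≤ M := Finset.single_le_sum (f := fun x => ∑ y, |m x y|)
          (fun x _ => Finset.sum_nonneg fun y _ => abs_nonneg _) (Finset.mem_univ x)
  have hw := fun n => exists_weights (hF n) hM0 (fun x y => (hLU n x y).2.trans (hdM n x y))
  choose w hw0 hwM hwF using hw
  have hcomp : IsCompact (Set.Icc (fun _ => 0 : (V → Bool) → ℝ) (fun _ => M)) := isCompact_Icc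
  obtain ⟨v, hv, φ, hφ, hlim⟩ := hcomp.tendsto_subseq (x := w)
    (fun n => ⟨fun b => hw0 n b, fun b => hwM n b⟩)
  have hlimb : ∀ b, Tendsto (fun n => w (φ n) b) atTop (𝓝 (v b)) := by
    intro b
    exact (tendsto_pi_nhds.1 hlim) b
  have hlimF : ∀ x y, Tendsto (fun n => F (φ n) x y) atTop
      (𝓝 (∑ b, v b * (if b x = b y then 0 else 1))) := by
    intro x y
    have h1 : (fun n => F (φ n) x y) =
        fun n => ∑ b, w (φ n) b * (if b x = b y then 0 else 1) := by
      funext n; exact hwF (φ n) x y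
    rw [h1]
    exact tendsto_finsetSum _ fun b _ => (hlimb b).mul_const _
  refine ⟨fun x y => ∑ b, v b * (if b x = b y then 0 else 1), ?_, fun x y => ⟨?_, ?_⟩⟩
  · exact ⟨V → Bool, inferInstance, v, fun b => b, fun b => hv.1 b, fun x y => rfl⟩
  · exact le_of_tendsto_of_tendsto' ((hL x y).comp hφ.tendsto_atTop) (hlimF x y)
      fun n => (hLU (φ n) x y).1
  · exact le_of_tendsto_of_tendsto' (hlimF x y) ((hU x y).comp hφ.tendsto_atTop)
      fun n => (hLU (φ n) x y).2

/-- the path pseudometric of edge lengths `l ≥ 0` (dual form) -/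
theorem exists_pseudo [Finite V] {G : SimpleGraph V} (hc : G.Connected) (l : V → V → ℝ)
    (hl : ∀ u v, G.Adj u v → 0 ≤ l u v) (hs : ∀ u v, l u v = l v u) :
    ∃ ρ : V → V → ℝ, IsPM ρ ∧ Gen G ρ ∧ (∀ u v, G.Adj u v → ρ u v ≤ l u v) ∧
      (∀ f : V → ℝ, (∀ u v, G.Adj u v → |f u - f v| ≤ l u v) → ∀ x y, |f x - f y| ≤ ρ x y) ∧
      ∀ e : V → V → ℝ, IsPM e → (∀ u v, G.Adj u v → e u v ≤ l u v) → ∀ x y, e x y ≤ ρ x y := by
  classical
  let F : Set (V → ℝ) := {f | ∀ u v, G.Adj u v → |f u - f v| ≤ l u v}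
  have hF0 : (fun _ => (0 : ℝ)) ∈ F := by
    intro u v huv; simpa using hl u v huv
  let ℓ : Sym2 V → ℝ := Sym2.lift ⟨fun u v => l u v + 1, fun u v => by show l u v + 1 = l v u + 1; rw [hs]⟩
  have hbd : ∀ x y, BddAbove (Set.range fun f : F => |f.1 x - f.1 y|) := by
    intro x y
    refine ⟨pathDist G ℓ x y, ?_⟩
    rintro _ ⟨f, rfl⟩
    refine pathDist_gen hc (fun u v huv => ?_) x y
    have := f.2 u v huv
    show _ ≤ l u v + 1
    linarith
  have hne : Nonempty F := ⟨⟨_, hF0⟩⟩
  let ρ : V → V → ℝ := fun x y => ⨆ f : F, |f.1 x - f.1 y|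
  have hle : ∀ f ∈ F, ∀ x y, |f x - f y| ≤ ρ x y := fun f hf x y =>
    le_ciSup (hbd x y) (⟨f, hf⟩ : F)
  have hadj : ∀ u v, G.Adj u v → ρ u v ≤ l u v := fun u v huv => ciSup_le fun f => f.2 u v huv
  have hpm : IsPM ρ := by
    refine ⟨fun x => ?_, fun x y => ?_, fun x y z => ?_⟩
    · simp [ρ]
    · simp only [ρ]
      congr 1; funext f; rw [abs_sub_comm]
    · refine ciSup_le fun f => ?_
      have h1 := hle f.1 f.2 x y
      have h2 := hle f.1 f.2 y z
      exact (abs_sub_le _ (f.1 y) _).trans (add_le_add h1 h2)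
  refine ⟨ρ, hpm, ?_, hadj, hle, ?_⟩
  · intro f hf x y
    exact hle f (fun u v huv => (hf u v huv).trans (hadj u v huv)) x y
  · intro e he hel x y
    have h := hle (fun v => e v y) (fun u v huv => (he.abs_sub u v y).trans (hel u v huv)) x y
    have h2 : |e x y - e y y| ≤ ρ x y := h
    rw [he.self, sub_zero, abs_of_nonneg (he.nonneg x y)] at h2
    exact h2

/-- **edge-exactness for pseudometrics** -/
theorem edgeExact_pseudo [Finite V] {G : SimpleGraph V} {c : ℝ} (h : EdgeExact G c)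
    {ρ : V → V → ℝ} (hρ : IsPM ρ) (hG : Gen G ρ) (hconn : G.Connected) {s t : V}
    (hst : G.Adj s t) :
    ∃ F, IsL1 F ∧ F s t = ρ s t ∧ (∀ x y, c * ρ x y ≤ F x y) ∧ ∀ x y, F x y ≤ ρ x y := by
  classical
  have hpos : ∀ n : ℕ, (0 : ℝ) < 1 / ((n : ℝ) + 1) := fun n => by positivity
  let ℓ : ℕ → Sym2 V → ℝ := fun n =>
    Sym2.lift ⟨fun u v => ρ u v + 1 / ((n : ℝ) + 1), fun u v => by
      show ρ u v + 1 / ((n : ℝ) + 1) = ρ v u + 1 / ((n : ℝ) + 1); rw [hρ.symm]⟩
  have hℓ : ∀ n, ∀ e ∈ G.edgeSet, 0 < ℓ n e := by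
    intro n e
    induction e using Sym2.ind with
    | _ u v =>
      intro _
      have := hρ.nonneg u v
      have := hpos n
      show 0 < ρ u v + 1 / ((n : ℝ) + 1)
      linarith
  let r : ℕ → V → V → ℝ := fun n => pathDist G (ℓ n)
  have hmet : ∀ n, IsMet (r n) := fun n => pathDist_isMet hconn (hℓ n)
  have hadj : ∀ n u v, G.Adj u v → r n u v ≤ ρ u v + 1 / ((n : ℝ) + 1) := fun n u v huv =>
    pathDist_adj (hℓ n) huv
  have hgen' : ∀ (n : ℕ) (f : V → ℝ), (∀ u v, G.Adj u v → |f u - f v| ≤ ρ u v + 1 / ((n : ℝ) + 1)) →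
      ∀ x y, |f x - f y| ≤ r n x y := fun n f hf x y => pathDist_gen hconn hf x y
  have hgen : ∀ n, Gen G (r n) := fun n f hf x y =>
    hgen' n f (fun u v huv => (hf u v huv).trans (hadj n u v huv)) x y
  -- monotone
  have hanti : ∀ x y, Antitone fun n : ℕ => r n x y := by
    intro x y
    refine antitone_nat_of_succ_le fun n => ?_
    have h1 := hgen' n (fun v => r (n + 1) v y) (fun u v huv => by
      refine (abs_dist_sub (hmet (n + 1)) u v y).trans ((hadj (n + 1) u v huv).trans ?_)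
      have : (1 : ℝ) / (((n + 1 : ℕ) : ℝ) + 1) ≤ 1 / ((n : ℝ) + 1) := by
        apply one_div_le_one_div_of_le (by positivity)
        push_cast; linarith
      linarith) x y
    have h2 : |r (n + 1) x y - r (n + 1) y y| ≤ r n x y := h1
    rw [(hmet (n + 1)).self, sub_zero, abs_of_nonneg ((hmet (n + 1)).nonneg x y)] at h2
    exact h2
  have hlow : ∀ (n : ℕ) x y, ρ x y ≤ r n x y := by
    intro n x y
    have h1 := hgen' n (fun v => ρ v y) (fun u v huv => by
      have := hρ.abs_sub u v y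
      have := hpos n
      linarith) x y
    have h2 : |ρ x y - ρ y y| ≤ r n x y := h1
    rw [hρ.self, sub_zero, abs_of_nonneg (hρ.nonneg x y)] at h2
    exact h2
  have hbdd : ∀ x y, BddBelow (Set.range fun n : ℕ => r n x y) := fun x y =>
    ⟨ρ x y, by rintro _ ⟨n, rfl⟩; exact hlow n x y⟩
  let R : V → V → ℝ := fun x y => ⨅ n : ℕ, r n x y
  have hlim : ∀ x y, Tendsto (fun n : ℕ => r n x y) atTop (𝓝 (R x y)) := fun x y =>
    tendsto_atTop_ciInf (hanti x y) (hbdd x y)
  have hRpm : IsPM R := by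
    refine ⟨fun x => ?_, fun x y => ?_, fun x y z => ?_⟩
    · simp only [R]
      have : (fun n => r n x x) = fun _ => (0 : ℝ) := by funext n; exact (hmet n).self x
      rw [this]; exact ciInf_const
    · simp only [R]
      congr 1; funext n; exact (hmet n).symm x y
    · exact le_of_tendsto_of_tendsto' (hlim x z) ((hlim x y).add (hlim y z))
        fun n => (hmet n).tri x y z
  have hRadj : ∀ u v, G.Adj u v → R u v ≤ ρ u v := by
    intro u v huv
    have h1 : Tendsto (fun n : ℕ => ρ u v + 1 / ((n : ℝ) + 1)) atTop (𝓝 (ρ u v + 0)) :=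
      tendsto_const_nhds.add tendsto_one_div_add_atTop_nhds_zero_nat
    rw [add_zero] at h1
    exact le_of_tendsto_of_tendsto' (hlim u v) h1 fun n => hadj n u v huv
  have hRρ : R = ρ := by
    funext x y
    apply le_antisymm
    · have h := hG (fun v => R v y) (fun u v huv =>
        (hRpm.abs_sub u v y).trans (hRadj u v huv)) x y
      have h2 : |R x y - R y y| ≤ ρ x y := h
      rw [hRpm.self, sub_zero, abs_of_nonneg (hRpm.nonneg x y)] at h2
      exact h2
    · exact le_ciInf fun n => hlow n x y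
  rw [hRρ] at hlim
  obtain ⟨F, hF, hb⟩ := isL1_lim (U := r)
    (L := fun n x y => if x = s ∧ y = t then r n x y else c * r n x y)
    (U' := ρ) (L' := fun x y => if x = s ∧ y = t then ρ x y else c * ρ x y) hlim (fun x y => by
      by_cases hxy : x = s ∧ y = t
      · simp only [if_pos hxy]; exact hlim x y
      · simp only [if_neg hxy]; exact (hlim x y).const_mul c)
    (fun n => by
      obtain ⟨F, h1, h2, h3, h4⟩ := h (r n) (hmet n) (hgen n) s t hst
      refine ⟨F, h1, fun x y => ⟨?_, h4 x y⟩⟩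
      split_ifs with hxy
      · rw [hxy.1, hxy.2, h2]
      · exact h3 x y)
  refine ⟨F, hF, ?_, fun x y => ?_, fun x y => (hb x y).2⟩
  · refine le_antisymm (hb s t).2 ?_
    have := (hb s t).1
    simpa using this
  · by_cases hxy : x = s ∧ y = t
    · obtain ⟨F', h1, h2, h3, h4⟩ := h (r 0) (hmet 0) (hgen 0) s t hst
      have hc1 : c ≤ 1 := by
        have h5 := h3 s t
        rw [h2] at h5
        have h6 := (hmet 0).pos s t hst.ne
        by_contra hlt
        push Not at hlt
        nlinarith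
      have h5 := (hb x y).1
      simp only [if_pos hxy] at h5
      have := hρ.nonneg x y
      nlinarith
    · have h5 := (hb x y).1
      simp only [if_neg hxy] at h5
      exact h5

end Vale.Agent.P235.K5.H558
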